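import Vale.Agent.P070Z56.Root
import Vale.Agent.P070ZA.Defs
import Vale.Agent.P070Z34.Neu

/-!
# The cut-offs `(1 + 2 ^ n k)⁻¹`, Cayley inverses, positivity under representations
-/

set_option linter.unusedSectionVars false

namespace Vale.Agent.P070Z

open Vale.Agent.P129B Vale.Agent.P070ZT Vale.Agent.P070Z56

universe v

variable {N : Type v} [ZM N] {α : Type*} [Coded N α]

theorem ringInverse_eq {A : Type*} [Ring A] {x y : A} (h1 : y * x = 1) (h2 : x * y = 1) :
    Ring.inverse x = y := Ring.inverse_unit ⟨x, y, h2, h1⟩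

theorem ringInverse_eq_rinv {A : Type*} [Ring A] (x : A) : Ring.inverse x = rinv x := by
  by_cases h : ∃ y, y * x = 1 ∧ x * y = 1
  · obtain ⟨y, h1, h2⟩ := h
    rw [ringInverse_eq h1 h2, rinv_eq h1 h2]
  · rw [rinv, dif_neg h, Ring.inverse_non_unit]
    rintro ⟨u, rfl⟩
    exact h ⟨_, u.inv_mul, u.mul_inv⟩

@[fun_prop] theorem DefF.ringInverse {A : Type*} [Ring A] [Coded N A] [Tot N A] [DefMul N A]
    {f : α → A} (hf : DefF N f) : DefF N (fun a => Ring.inverse (f a)) := by
  simp only [ringInverse_eq_rinv]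
  exact DefF.rinv hf

variable {R K : Type*} [Nm K R] [Field R] [LinearOrder R] [IsStrictOrderedRing R]
  [Field K] [Algebra R K] [KA R K] [StarRing K] [CX R K] [Coded N R] [RF N R] [Coded N K]
  [KF N R K] {H : Type*} [AddCommGroup H] [Module K H] [Nm H R] [Ip H K] [IA R K H] [Coded N H]
  [HS N R K H] {L : Type*} [AddCommGroup L] [Module K L] [Nm L R] [Ip L K] [IA R K L] [Coded N L]
  [HS N R K L]

include R K

@[fun_prop] theorem DefF.cut {n : α → NN N} {k : α → Op N K H} (hn : DefF N n) (hk : DefF N k) :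
    DefF N (fun a => cut (n a) (k a)) := by
  unfold P070Z.cut
  fun_prop

variable {A : Set (Op N K H)} {π : Op N K H → Op N K L} {k u x : Op N K H}

theorem _root_.Vale.Agent.P070ZT.CS.nsub (h : CS N K A) : NSub A :=
  ⟨h.intl, h.zero, h.add, h.mul, h.smul, h.star, h.cld⟩

/-- Representations are contractive. -/
theorem Rp.nm_le (h : Rp A π) (hA : CS N K A) (hx : x ∈ A) : nm (π x) ≤ nm x :=
  rep_contr hA.nsub h.add h.mul h.smul h.star hx

theorem Rp.toURp (h : Rp A π) (hA : CS N K A) (h1 : π 1 = 1) : URp A π :=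
  ⟨h, h1, fun _ ha z => Op.le_of_opNorm_le (h.nm_le hA ha) z⟩

/-- Representations preserve positivity. -/
theorem Rp.pos (h : Rp A π) (hA : CS N K A) (hk : k ∈ A) (hp : Pos k) : Pos (π k) :=
  ⟨by rw [← h.star k hk, hp.1], rep_pos hA.nsub hA.one h.mul h.star hk hp.1 hp.2⟩

theorem Pos.conj (hp : Pos k) (u : Op N K H) : Pos (u * k * star u) :=
  ⟨by rw [star_mul, star_mul, star_star, hp.1, mul_assoc], fun x => by
    rw [Op.mul_apply, Op.mul_apply, ← ip_star_left]; exact hp.2 _⟩

theorem Pos.conj' (hp : Pos k) (u : Op N K H) : Pos (star u * k * u) := by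
  simpa only [star_star] using hp.conj (star u)

theorem pos_star_mul_self (x : Op N K H) : Pos (star x * x) :=
  ⟨by rw [star_mul, star_star], fun v => by
    rw [Op.ip_star_mul_self, KA.re_ofR]; exact sq_nonneg _⟩

theorem Pos.add {l : Op N K H} (hk : Pos k) (hl : Pos l) : Pos (k + l) :=
  ⟨by rw [star_add, hk.1, hl.1], fun v => by
    rw [Op.add_apply, ip_add_right, map_add]; exact add_nonneg (hk.2 v) (hl.2 v)⟩

theorem Pos.smul (hk : Pos k) {t : R} (ht : 0 ≤ t) : Pos (algebraMap R K t • k) :=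
  ⟨by rw [star_smul, star_ofR, hk.1], fun v => by
    rw [Op.smul_apply, ip_smul_right, KA.re_ofR_mul]; exact mul_nonneg ht (hk.2 v)⟩

theorem Pos.nm_one_sub (hk : Pos k) (h1 : nm k ≤ 1) : nm (1 - k) ≤ 1 :=
  nm_one_sub_le_one hk.1 hk.2 h1

theorem Pos.exists_root (hk : Pos k) : ∃ S : Op N K H, Pos S ∧ S * S = k ∧
    (∀ c, c * k = k * c → c * S = S * c) ∧ ∀ A, CS N K A → k ∈ A → S ∈ A := by
  obtain ⟨S, h⟩ := P070Z56.exists_root hk.1 hk.2
  exact ⟨S, ⟨h.sa, h.pos⟩, h.sq, h.comm, fun A hA hm =>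
    h.mem A hA.intl hA.one hA.add hA.mul hA.smul hA.cld hm⟩

/-- The inverse of `1 + x` for accretive `x`. -/
theorem exists_inv_one_add (h : ∀ z, 0 ≤ KA.re (ip z (x z))) :
    ∃ y : Op N K H, y * (1 + x) = 1 ∧ (1 + x) * y = 1 ∧ nm y ≤ 1 ∧
      ∀ A, CS N K A → x ∈ A → y ∈ A := by
  obtain ⟨y, h1, h2, h3, h4⟩ := exists_inv_of_re (x := 1 + x) one_pos fun z => by
    rw [Op.add_apply, Op.one_apply, ip_add_right, map_add, re_ip_self, one_mul]
    linarith [h z]
  exact ⟨y, h1, h2, by simpa using h3, fun A hA hx => h4 A hA.intl hA.cld hA.one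
    (hA.add _ hA.one _ hx) hA.add hA.mul fun r => hA.smul _⟩

/-- Cayley inverses -/
theorem exists_cayley (hA : CS N K A) {D : Op N K H} (hD : D ∈ A) (hs : star D = -D) :
    ∃ r ∈ A, nm r ≤ 1 ∧ r * (1 - D) = 1 ∧ (1 - D) * r = 1 := by
  obtain ⟨y, h1, h2, h3, h4⟩ := exists_inv_one_add (x := -D) fun z => by
    have h1 := re_ip_symm (K := K) z (D z)
    rw [← ip_star_right, hs] at h1
    rw [← h1]
    rw [Op.neg_apply, ip_neg_right, map_neg] at h1
    linarith
  rw [← sub_eq_add_neg] at h1 h2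
  exact ⟨y, h4 A hA (hA.neg D hD), h3, h1, h2⟩

/-- the inverse of `1 + x` for positive `x` is a positive contraction -/
theorem Pos.inv_spec (hx : Pos x) : Ring.inverse (1 + x) * (1 + x) = 1 ∧
    (1 + x) * Ring.inverse (1 + x) = 1 ∧ nm (Ring.inverse (1 + x)) ≤ 1 ∧
    Pos (Ring.inverse (1 + x)) ∧ ∀ A, CS N K A → x ∈ A → Ring.inverse (1 + x) ∈ A := by
  obtain ⟨y, h1, h2, h3, h4⟩ := exists_inv_one_add hx.2
  rw [ringInverse_eq h1 h2]
  refine ⟨h1, h2, h3, ⟨star_inv_eq (R := R) (K := K)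
    (by rw [star_add, star_one, hx.1]) h1, fun v => ?_⟩, h4⟩
  have h5 : v = y v + x (y v) := by
    have := congrArg (fun T : Op N K H => T v) h2
    simpa only [Op.mul_apply, Op.add_apply, Op.one_apply] using this.symm
  nth_rewrite 1 [h5]
  rw [ip_add_left, map_add, re_ip_self, re_ip_symm]
  exact add_nonneg (sq_nonneg _) (hx.2 _)

namespace Pos

variable (hk : Pos k) (n : NN N)
include hk

theorem cut_mul : cut n k * (1 + algebraMap R K (ipow (2 : R) n) • k) = 1 :=
  (hk.smul (ipow_pos two_pos n).le).inv_spec.1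

theorem mul_cut : (1 + algebraMap R K (ipow (2 : R) n) • k) * cut n k = 1 :=
  (hk.smul (ipow_pos two_pos n).le).inv_spec.2.1

theorem nm_cut : nm (cut n k) ≤ 1 := (hk.smul (ipow_pos two_pos n).le).inv_spec.2.2.1

theorem cut_pos : Pos (cut n k) := (hk.smul (ipow_pos two_pos n).le).inv_spec.2.2.2.1

theorem cut_sa : star (cut n k) = cut n k := (hk.cut_pos n).1

theorem cut_mem (hA : CS N K A) (h : k ∈ A) : cut n k ∈ A :=
  (hk.smul (ipow_pos two_pos n).le).inv_spec.2.2.2.2 A hA (hA.smul _ _ h)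

theorem cut_comm {c : Op N K H} (h : c * k = k * c) : c * cut n k = cut n k * c :=
  comm_of_inv (R := R) (K := K) (hk.cut_mul n) (hk.mul_cut n) (by
    rw [mul_add, add_mul, mul_one, one_mul, mul_smul_comm, smul_mul_assoc, h])

theorem one_sub_cut : 1 - cut n k = (algebraMap R K (ipow (2 : R) n) • cut n k) * k := by
  have h := hk.cut_mul n
  rw [mul_add, mul_one, mul_smul_comm] at h
  rw [smul_mul_assoc, sub_eq_iff_eq_add', h]

theorem one_sub_cut' : 1 - cut n k = k * (algebraMap R K (ipow (2 : R) n) • cut n k) := by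
  rw [hk.one_sub_cut n, smul_mul_assoc, mul_smul_comm, hk.cut_comm n rfl]

theorem nm_one_sub_cut : nm (1 - cut n k) ≤ 1 := (hk.cut_pos n).nm_one_sub (hk.nm_cut n)

theorem nm_cut_mul : nm (cut n k * k) ≤ hp R n := by
  have h := hk.nm_one_sub_cut n
  have h0 : 0 < ipow (2 : R) n := ipow_pos two_pos n
  rw [hk.one_sub_cut n, smul_mul_assoc, nm_ofR_smul_of_nonneg h0.le,
    ← two_ipow_mul_hp (R := R) n] at h
  exact le_of_mul_le_mul_left h h0

theorem nm_mul_cut : nm (k * cut n k) ≤ hp R n := by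
  rw [hk.cut_comm n rfl]; exact hk.nm_cut_mul n

theorem cut_small (ε : R) (hε : 0 < ε) : ∃ m : NN N, ∀ n, m ≤ n → nm (k * cut n k) ≤ ε := by
  obtain ⟨m, hm⟩ := exists_hp_lt N hε
  exact ⟨m, fun n hn => (hk.nm_mul_cut n).trans (hm n hn).le⟩

theorem cut_apply {z : H} (hz : k z = 0) : cut n k z = z := by
  have h := congrArg (fun T : Op N K H => T z) (hk.cut_mul n)
  simpa [hz] using h

theorem cut_conj (hu : Un u) : cut n (u * k * star u) = u * cut n k * star u := by
  have e : 1 + algebraMap R K (ipow (2 : R) n) • (u * k * star u) =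
      u * (1 + algebraMap R K (ipow (2 : R) n) • k) * star u := by
    rw [mul_add, add_mul, mul_one, hu.2, mul_smul_comm, smul_mul_assoc]
  have key : ∀ a b : Op N K H, a * b = 1 → u * a * star u * (u * b * star u) = 1 := fun a b h => by
    calc u * a * star u * (u * b * star u) = u * (a * (star u * u) * b) * star u := by
          simp only [mul_assoc]
      _ = 1 := by rw [hu.1, mul_one, h, mul_one, hu.2]
  rw [cut, e]
  exact ringInverse_eq (key _ _ (hk.cut_mul n)) (key _ _ (hk.mul_cut n))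

/-- Unital representations commute with the cut-offs. -/
theorem map_cut (hA : CS N K A) (h : URp A π) (hm : k ∈ A) : π (cut n k) = cut n (π k) := by
  have h1 := hA.smul (algebraMap R K (ipow (2 : R) n)) k hm
  have h2 := hA.add _ hA.one _ h1
  have h3 := hk.cut_mem n hA hm
  have e : π (1 + algebraMap R K (ipow (2 : R) n) • k) =
      1 + algebraMap R K (ipow (2 : R) n) • π k := by
    rw [h.add _ hA.one _ h1, h.one, h.smul _ _ hm]
  refine (ringInverse_eq ?_ ?_).symm
  · rw [← e, ← h.mul _ h3 _ h2, hk.cut_mul n, h.one]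
  · rw [← e, ← h.mul _ h2 _ h3, hk.mul_cut n, h.one]

/-- the cut-off fixes the kernel in every representation -/
theorem rep_cut_apply (hA : CS N K A) (h : URp A π) (hm : k ∈ A) {z : L} (hz : π k z = 0) :
    π (cut n k) z = z := by
  rw [hk.map_cut n hA h hm]
  exact (h.toRp.pos hA hm hk).cut_apply n hz

end Pos

end Vale.Agent.P070Z
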