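import Vale.Agent.P070Z56.Cut
import Vale.Agent.P070ZS5.Schur
import Vale.Agent.P070Z72.MainOf

/-!
# Absolute values exist and representations are contractive: the two interface statements
-/

set_option linter.unusedSectionVars false

namespace Vale.Agent.P070Z56

open Vale.Agent.P129B Vale.Agent.P070Z

universe v

variable {N : Type v} [ZM N] {R K : Type*} [Nm K R] [Field R] [LinearOrder R]
  [IsStrictOrderedRing R] [Field K] [Algebra R K] [KA R K] [StarRing K] [CX R K]
  [Coded N R] [RF N R] [Coded N K] [KF N R K]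

include R K

theorem abs_holds {L : Type*} [AddCommGroup L] [Module K L] [Nm L R] [Ip L K] [IA R K L]
    [Coded N L] [HS N R K L] : S5.Abs N K L := fun X hX => by
  obtain ⟨S, -, h1, h2, -, h3, -⟩ := exists_abs_sa hX
  exact ⟨S, h2, h1, fun Y hY => (h3 Y hY.symm).symm⟩

theorem contr_holds : P070Z72.Contr N R K := fun _ _ _ _ _ _ _ _ _ _ _ _ _ _ _ _ _ _ hA h h1 =>
  (h.toURp hA h1).bd

end Vale.Agent.P070Z56
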