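import Vale.Agent.P070Z56.Sqrt
import Vale.Agent.P070ZA.Op

/-!
# Square roots of positive operators; representations are contractive
-/

set_option linter.unusedSectionVars false

namespace Vale.Agent.P070Z56

open Vale.Agent.P129B Vale.Agent.P070Z

universe v

variable {N : Type v} [ZM N] {α : Type*} [Coded N α]
  {R K : Type*} [Nm K R] [Field R] [LinearOrder R] [IsStrictOrderedRing R]
  [Field K] [Algebra R K] [KA R K] [StarRing K] [CX R K] [Coded N R] [RF N R] [Coded N K]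
  [KF N R K] {H : Type*} [AddCommGroup H] [Module K H] [Nm H R] [Ip H K] [IA R K H] [Coded N H]
  [HS N R K H] {L : Type*} [AddCommGroup L] [Module K L] [Nm L R] [Ip L K] [IA R K L] [Coded N L]
  [HS N R K L]

theorem le_of_sq_le' {R : Type*} [Field R] [LinearOrder R] [IsStrictOrderedRing R] {a b : R}
    (h : a ^ 2 ≤ b ^ 2) (hb : 0 ≤ b) : a ≤ b :=
  (le_abs_self a).trans (abs_le_of_sq_le_sq h hb)

include R K

/-- closed star subalgebras, unital or not -/
structure NSub (A : Set (Op N K H)) : Prop where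
  intl : Intl N A
  zero : (0 : Op N K H) ∈ A
  add : ∀ a ∈ A, ∀ b ∈ A, a + b ∈ A
  mul : ∀ a ∈ A, ∀ b ∈ A, a * b ∈ A
  smul : ∀ (c : K), ∀ a ∈ A, c • a ∈ A
  star : ∀ a ∈ A, star a ∈ A
  cld : Cld A

theorem sqr_mem {A : Set (Op N K H)} [Intl N A] (h0 : (0 : Op N K H) ∈ A)
    (hadd : ∀ a ∈ A, ∀ b ∈ A, a + b ∈ A) (hmul : ∀ a ∈ A, ∀ b ∈ A, a * b ∈ A)
    (hsm : ∀ (c : K), ∀ a ∈ A, c • a ∈ A) (hc : Cld A) {y : Op N K H} (hy : nm y ≤ 1)
    (hA : y ∈ A) : sqr N R K y ∈ A :=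
  (isSq_sqr Op.nm_mul_le hy).ind (Q := fun a => a ∈ A) (by fun_prop) h0
    (fun a ha => hsm _ _ (hadd _ hA _ (hmul _ ha _ ha))) fun _ hx => hc hx

theorem star_sqr {y : Op N K H} (hy : nm y ≤ 1) (hs : star y = y) :
    star (sqr N R K y) = sqr N R K y :=
  (isSq_sqr Op.nm_mul_le hy).fixed (σ := fun a => star a) (by fun_prop) star_add
    (fun a => star_mul a a) (fun a => (Op.nm_star a).le) hs

/-- `2 b = a* a + b²` with `b = b*` forces `‖a‖ ≤ 1`. -/
theorem nm_le_one_of_two {a b : Op N K L} (hb : star b = b) (h : b + b = star a * a + b * b) :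
    nm a ≤ 1 := by
  refine Op.opNorm_le zero_le_one fun v => ?_
  have h1 := congrArg (fun T : Op N K L => KA.re (ip v (T v))) h
  simp only [Op.add_apply, ip_add_right, map_add] at h1
  rw [Op.ip_star_mul_self, KA.re_ofR, Op.mul_apply, ← ip_sa hb v (b v), re_ip_self] at h1
  have h2 := nm_sub_sq (K := K) v (b v)
  rw [one_mul]
  exact le_of_sq_le' (by nlinarith [sq_nonneg (nm (v - b v))]) (nm_nonneg v)

/-- **Star homomorphisms on a closed star subalgebra are contractive.** -/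
theorem rep_contr {A : Set (Op N K H)} (hA : NSub A) {π : Op N K H → Op N K L}
    (hadd : ∀ a ∈ A, ∀ b ∈ A, π (a + b) = π a + π b)
    (hmul : ∀ a ∈ A, ∀ b ∈ A, π (a * b) = π a * π b)
    (hsm : ∀ (c : K), ∀ a ∈ A, π (c • a) = c • π a)
    (hst : ∀ a ∈ A, π (star a) = star (π a)) {a : Op N K H} (ha : a ∈ A) : nm (π a) ≤ nm a := by
  have core : ∀ a ∈ A, nm a ≤ 1 → nm (π a) ≤ 1 := fun a ha h1 => by
    have := hA.intl
    have hy : nm (star a * a) ≤ 1 := by
      simpa using Op.nm_mul_le_of ((Op.nm_star a).le.trans h1) h1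
    have hm := hA.mul _ (hA.star a ha) a ha
    have hb := sqr_mem hA.zero hA.add hA.mul hA.smul hA.cld hy hm
    have h2 := congrArg π ((isSq_sqr (N := N) (K := K) Op.nm_mul_le hy).two Op.nm_mul_le hy)
    rw [hadd _ hb _ hb, hadd _ hm _ (hA.mul _ hb _ hb), hmul _ hb _ hb,
      hmul _ (hA.star a ha) _ ha, hst a ha] at h2
    refine nm_le_one_of_two ?_ h2
    rw [← hst _ hb, star_sqr hy (by rw [star_mul, star_star])]
  rcases eq_or_ne a 0 with rfl | h
  · have := hsm 0 0 ha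
    rw [zero_smul, zero_smul] at this
    rw [this, nm_zero, nm_zero]
  · have h1 := core _ (hA.smul _ a ha) (nm_normalize (K := K) h).le
    have h2 := nm_pos_iff.2 h
    rwa [hsm _ a ha, nm_ofR_smul_of_nonneg (inv_nonneg.2 h2.le), inv_mul_le_iff₀ h2,
      mul_one] at h1

theorem rep_contr_apply {A : Set (Op N K H)} (hA : NSub A) {π : Op N K H → Op N K L}
    (hadd : ∀ a ∈ A, ∀ b ∈ A, π (a + b) = π a + π b)
    (hmul : ∀ a ∈ A, ∀ b ∈ A, π (a * b) = π a * π b)
    (hsm : ∀ (c : K), ∀ a ∈ A, π (c • a) = c • π a)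
    (hst : ∀ a ∈ A, π (star a) = star (π a)) {a : Op N K H} (ha : a ∈ A) (v : L) :
    nm (π a v) ≤ nm a * nm v :=
  Op.le_of_opNorm_le (rep_contr hA hadd hmul hsm hst ha) v

/-- `‖k v‖² ≤ ⟨v, k v⟩` for a positive contraction -/
theorem sq_le_re_ip {k : Op N K H} (hs : star k = k) (hp : ∀ v, 0 ≤ KA.re (ip v (k v)))
    (h1 : nm k ≤ 1) (v : H) : nm (k v) ^ 2 ≤ KA.re (ip v (k v)) := by
  have h2 := hp (v - k v)
  rw [map_sub, ip_sub_right, ip_sub_left, ip_sub_left, ← ip_sa hs v (k v)] at h2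
  simp only [map_sub, re_ip_self] at h2
  have h3 := re_ip_le (K := K) (k v) (k (k v))
  have h4 := Op.le_of_opNorm_le h1 (k v)
  nlinarith [nm_nonneg (k v)]

theorem nm_one_sub_le_one {k : Op N K H} (hs : star k = k) (hp : ∀ v, 0 ≤ KA.re (ip v (k v)))
    (h1 : nm k ≤ 1) : nm (1 - k) ≤ 1 := by
  refine Op.opNorm_le zero_le_one fun v => ?_
  rw [one_mul, Op.sub_apply, Op.one_apply]
  refine le_of_sq_le' ?_ (nm_nonneg v)
  rw [nm_sub_sq (K := K)]
  linarith [sq_le_re_ip hs hp h1 v, hp v]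

theorem pos_of_nm_one_sub {k : Op N K H} (h : nm (1 - k) ≤ 1) (v : H) :
    0 ≤ KA.re (ip v (k v)) := by
  have h1 := Op.le_of_opNorm_le h v
  rw [one_mul, Op.sub_apply, Op.one_apply] at h1
  have h2 := pow_le_pow_left₀ (nm_nonneg _) h1 2
  rw [nm_sub_sq (K := K)] at h2
  nlinarith [sq_nonneg (nm (k v))]

/-- `S` is a positive square root of `k` lying in every closed algebra containing `1` and `k`. -/
structure IsRoot (k S : Op N K H) : Prop where
  sa : star S = S
  sq : S * S = k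
  pos : ∀ v, 0 ≤ KA.re (ip v (S v))
  comm : ∀ c, c * k = k * c → c * S = S * c
  mem : ∀ A : Set (Op N K H), Intl N A → (1 : Op N K H) ∈ A → (∀ a ∈ A, ∀ b ∈ A, a + b ∈ A) →
    (∀ a ∈ A, ∀ b ∈ A, a * b ∈ A) → (∀ (c : K), ∀ a ∈ A, c • a ∈ A) → Cld A → k ∈ A → S ∈ A

theorem isRoot_sqr {k : Op N K H} (hs : star k = k) (h : nm (1 - k) ≤ 1) :
    IsRoot k (1 - sqr N R K (1 - k)) := by
  have hb := isSq_sqr (N := N) (K := K) Op.nm_mul_le h
  refine ⟨by rw [star_sub, star_one, star_sqr h (by rw [star_sub, star_one, hs])],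
    by rw [hb.sq Op.nm_mul_le h, sub_sub_cancel],
    pos_of_nm_one_sub (by rw [sub_sub_cancel]; exact hb.nm_le Op.nm_mul_le h),
    fun c hc => ?_, fun A hA h1 hadd hmul hsm hcl hk => ?_⟩
  · rw [mul_sub, sub_mul, mul_one, one_mul,
      hb.commute Op.nm_mul_le (by rw [mul_sub, sub_mul, mul_one, one_mul, hc])]
  · have hsub : ∀ a ∈ A, 1 - a ∈ A := fun a ha => by
      have := hadd _ h1 _ (hsm (-1) a ha)
      rwa [neg_one_smul, ← sub_eq_add_neg] at this
    exact hsub _ (sqr_mem (by simpa using hsub 1 h1) hadd hmul hsm hcl h (hsub k hk))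

/-- **Positive operators have a positive square root.** -/
theorem exists_root {k : Op N K H} (hs : star k = k) (hp : ∀ v, 0 ≤ KA.re (ip v (k v))) :
    ∃ S, IsRoot k S := by
  have h0 : 0 < nm k + 1 := by linarith [nm_nonneg k]
  have h1 : (nm k + 1) * (nm k + 1) ≠ 0 := by positivity
  have h2 : 0 ≤ ((nm k + 1) * (nm k + 1))⁻¹ := by positivity
  have e : ∀ x : Op N K H, algebraMap R K (nm k + 1) • algebraMap R K (nm k + 1) •
      algebraMap R K ((nm k + 1) * (nm k + 1))⁻¹ • x = x := fun x => by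
    rw [smul_smul, smul_smul, ← map_mul, ← map_mul, mul_inv_cancel₀ h1, map_one, one_smul]
  have hs' : star (algebraMap R K ((nm k + 1) * (nm k + 1))⁻¹ • k) =
      algebraMap R K ((nm k + 1) * (nm k + 1))⁻¹ • k := by rw [star_smul, star_ofR, hs]
  have h := isRoot_sqr hs' (nm_one_sub_le_one hs' (fun v => by
      rw [Op.smul_apply, ip_smul_right, KA.re_ofR_mul]; exact mul_nonneg h2 (hp v)) (by
      rw [nm_ofR_smul_of_nonneg h2, inv_mul_le_iff₀ (by positivity)]; nlinarith [nm_nonneg k]))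
  generalize 1 - sqr N R K (1 - algebraMap R K ((nm k + 1) * (nm k + 1))⁻¹ • k) = S at h
  refine ⟨algebraMap R K (nm k + 1) • S, by rw [star_smul, star_ofR, h.sa],
    by rw [smul_mul_assoc, mul_smul_comm, h.sq, e], fun v => ?_, fun c hc => ?_,
    fun A hA h1 hadd hmul hsm hcl hk => hsm _ _ (h.mem A hA h1 hadd hmul hsm hcl (hsm _ _ hk))⟩
  · rw [Op.smul_apply, ip_smul_right, KA.re_ofR_mul]; exact mul_nonneg h0.le (h.pos v)
  · rw [smul_mul_assoc, mul_smul_comm, h.comm c (by rw [smul_mul_assoc, mul_smul_comm, hc])]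

/-- the absolute value `|T|` -/
theorem exists_abs (T : Op N K H) : ∃ S, IsRoot (star T * T) S :=
  exists_root (by rw [star_mul, star_star]) fun v => by
    rw [Op.ip_star_mul_self, KA.re_ofR]; exact sq_nonneg _

theorem IsRoot.nm_apply {T S : Op N K H} (h : IsRoot (star T * T) S) (v : H) :
    nm (S v) = nm (T v) := by
  have h1 := Op.ip_star_mul_self S v
  rw [h.sa, h.sq, Op.ip_star_mul_self] at h1
  exact ((pow_left_inj₀ (nm_nonneg _) (nm_nonneg _) two_ne_zero).1 (KA.ofR_inj h1)).symm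

/-- the absolute value of a self-adjoint operator -/
theorem exists_abs_sa {T : Op N K H} (hT : star T = T) : ∃ S : Op N K H, star S = S ∧
    S * S = T * T ∧ (∀ v, 0 ≤ KA.re (ip v (S v))) ∧ T * S = S * T ∧
    (∀ c, c * T = T * c → c * S = S * c) ∧ ∀ v, nm (S v) = nm (T v) := by
  obtain ⟨S, h⟩ := exists_abs T
  have h1 := h.nm_apply
  rw [hT] at h
  have h2 : ∀ c, c * T = T * c → c * S = S * c := fun c hc =>
    h.comm c (by rw [← mul_assoc, hc, mul_assoc, hc, mul_assoc])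
  exact ⟨S, h.sa, h.sq, h.pos, h2 T rfl, h2, h1⟩

/-- Representations preserve positivity. -/
theorem rep_pos {A : Set (Op N K H)} (hA : NSub A) (h1 : (1 : Op N K H) ∈ A)
    {π : Op N K H → Op N K L} (hmul : ∀ a ∈ A, ∀ b ∈ A, π (a * b) = π a * π b)
    (hst : ∀ a ∈ A, π (star a) = star (π a)) {k : Op N K H} (hk : k ∈ A) (hs : star k = k)
    (hp : ∀ v, 0 ≤ KA.re (ip v (k v))) (v : L) : 0 ≤ KA.re (ip v (π k v)) := by
  obtain ⟨S, h⟩ := exists_root hs hp
  have hS := h.mem A hA.intl h1 hA.add hA.mul hA.smul hA.cld hk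
  have h2 : π k = star (π S) * π S := by rw [← hst S hS, h.sa, ← hmul S hS S hS, h.sq]
  rw [h2, Op.ip_star_mul_self, KA.re_ofR]
  exact sq_nonneg _

end Vale.Agent.P070Z56
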