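import Vale.Agent.P129BB.Geo
import Vale.Agent.P129BI.FP

/-!
# The square root of `1 - y` in a complete normed algebra of the model

For `‖y‖ ≤ 1` the iteration `b ↦ (y + b²) / 2` converges to `b` with `(1 - b)² = 1 - y`.
-/

set_option linter.unusedSectionVars false

namespace Vale.Agent.P070Z56

open Vale.Agent.P129B

universe v

variable {N : Type v} [ZM N] {α : Type*} [Coded N α]
variable {R : Type*} [Field R] [LinearOrder R] [IsStrictOrderedRing R] [Coded N R] [RF N R]

variable (R) in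
/-- the real majorant of the iteration -/
noncomputable def rs (n : NN N) : R := irec 0 (fun _ r => (1 + r * r) / 2) n

@[fun_prop] theorem defF_rs {f : α → NN N} (hf : DefF N f) : DefF N (fun a => rs R (f a)) := by
  unfold rs
  fun_prop

theorem rs_zero : rs R (0 : NN N) = 0 := irec_zero _ _

theorem rs_succ (n : NN N) : rs R (n + 1) = (1 + rs R n * rs R n) / 2 :=
  irec_succ (by fun_prop) n

theorem rs_mem (n : NN N) : 0 ≤ rs R n ∧ rs R n ≤ 1 :=
  NN.ind (P := fun n => 0 ≤ rs R n ∧ rs R n ≤ 1) (by fun_prop) (by rw [rs_zero]; norm_num)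
    (fun n ih => by rw [rs_succ]; constructor <;> nlinarith [ih.1, ih.2]) n

theorem rs_mono {l k : NN N} (h : l ≤ k) : rs R l ≤ rs R k :=
  NN.le_ind (P := fun k => rs R l ≤ rs R k) (by fun_prop) le_rfl
    (fun k _ ih => by rw [rs_succ]; nlinarith [sq_nonneg (1 - rs R k)]) h

variable (N) in
theorem rs_cauchy {ε : R} (hε : 0 < ε) :
    ∃ n : NN N, ∀ k l : NN N, n ≤ l → rs R k - rs R l < ε := by
  have h1 : Intl N {r : R | ∃ n : NN N, rs R n = r} := intl_setOfT (by fun_prop)
  obtain ⟨c, hc⟩ := RF.lub (N := N) _ h1 ⟨_, 0, rfl⟩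
    ⟨1, by rintro _ ⟨n, rfl⟩; exact (rs_mem (N := N) n).2⟩
  obtain ⟨_, ⟨n, rfl⟩, hn, -⟩ := hc.exists_between (sub_lt_self c hε)
  exact ⟨n, fun k l hl => by linarith [hc.1 ⟨k, rfl⟩, rs_mono (R := R) hl]⟩

variable {K : Type*} [Field K] [Algebra R K] [Nm K R] [KA R K] [Coded N K] [KF N R K]
variable {A : Type*} [Ring A] [Algebra K A] [Nm A R] [NA R K A] [Coded N A] [NS N R K A]
  [DefMul N A]

instance (priority := 90) algDefSMul {R K A : Type*} [Field K] [Ring A] [Algebra K A] [Nm A R]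
    [Coded N R] [Coded N K] [Coded N A] [h : NS N R K A] : DefSMul N K A := h.defSMul

variable (R K) in
/-- the iteration -/
noncomputable def sqs (y : A) (n : NN N) : A :=
  irec 0 (fun _ b => algebraMap R K (1 / 2) • (y + b * b)) n

@[fun_prop] theorem defF_sqs {y : α → A} {f : α → NN N} (hy : DefF N y) (hf : DefF N f) :
    DefF N (fun a => sqs R K (y a) (f a)) := by
  unfold sqs
  fun_prop

theorem sqs_zero (y : A) : sqs R K y (0 : NN N) = 0 := irec_zero _ _

theorem sqs_succ (y : A) (n : NN N) :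
    sqs R K y (n + 1) = algebraMap R K (1 / 2) • (y + sqs R K y n * sqs R K y n) :=
  irec_succ (by fun_prop) n

theorem nm_half (x : A) : nm (algebraMap R K (1 / 2) • x) = nm x / 2 := by
  rw [nm_ofR_smul_of_nonneg (by norm_num)]; ring

theorem half_add_half (x : A) :
    algebraMap R K (1 / 2) • x + algebraMap R K (1 / 2) • x = x := by
  rw [← add_smul, ← map_add, add_halves, map_one, one_smul]

omit [NA R K A] in
theorem nm_sq_sub [NG R A] (hm : ∀ x y : A, nm (x * y) ≤ nm x * nm y) (a b : A) :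
    nm (a * a - b * b) ≤ (nm a + nm b) * nm (a - b) := by
  have h : a * a - b * b = a * (a - b) + (a - b) * b := by noncomm_ring
  rw [h]
  linarith [nm_add_le (a * (a - b)) ((a - b) * b), hm a (a - b), hm (a - b) b]

section Iter

variable (hm : ∀ x y : A, nm (x * y) ≤ nm x * nm y) {y : A} (hy : nm y ≤ 1)
include hm hy

theorem nm_sqs_le (n : NN N) : nm (sqs R K y n) ≤ rs R n :=
  NN.ind (P := fun n => nm (sqs R K y n) ≤ rs R n) (by fun_prop)
    (by rw [sqs_zero, rs_zero, nm_zero]) (fun n ih => by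
      rw [sqs_succ, rs_succ, nm_half]
      have h1 := nm_add_le y (sqs R K y n * sqs R K y n)
      have h2 := mul_le_mul ih ih (nm_nonneg _) (rs_mem n).1
      linarith [hm (sqs R K y n) (sqs R K y n)]) n

theorem nm_sqs_step (n : NN N) :
    nm (sqs R K y (n + 1) - sqs R K y n) ≤ rs R (n + 1) - rs R n :=
  NN.ind (P := fun n => nm (sqs R K y (n + 1) - sqs R K y n) ≤ rs R (n + 1) - rs R n)
    (by fun_prop)
    (by rw [sqs_zero, rs_zero, sub_zero, sub_zero]; exact nm_sqs_le hm hy _) (fun n ih => by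
      rw [sqs_succ y (n + 1), rs_succ (n + 1)]
      nth_rewrite 3 [sqs_succ]
      nth_rewrite 3 [rs_succ]
      rw [← smul_sub, add_sub_add_left_eq_sub, nm_half]
      have h1 := nm_sq_sub hm (sqs R K y (n + 1)) (sqs R K y n)
      have h2 := mul_le_mul (add_le_add (nm_sqs_le (K := K) hm hy (n + 1))
        (nm_sqs_le (K := K) hm hy n)) ih (nm_nonneg _)
        (add_nonneg (rs_mem (n + 1)).1 (rs_mem n).1)
      linarith) n

theorem nm_sqs_sub {l k : NN N} (h : l ≤ k) :
    nm (sqs R K y k - sqs R K y l) ≤ rs R k - rs R l :=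
  NN.le_ind (P := fun k => nm (sqs R K y k - sqs R K y l) ≤ rs R k - rs R l) (by fun_prop)
    (by rw [sub_self, sub_self, nm_zero]) (fun k _ ih => by
      linarith [nm_triangle (sqs R K y (k + 1)) (sqs R K y k) (sqs R K y l),
        nm_sqs_step (K := K) hm hy k]) h

end Iter

variable (N R K) in
/-- `b` is the limit of the iteration. -/
def IsSq (y b : A) : Prop :=
  ∀ ε : R, 0 < ε → ∃ n : NN N, ∀ k, n ≤ k → nm (sqs R K y k - b) < ε

@[fun_prop] theorem defF_isSq {y b : α → A} (hy : DefF N y) (hb : DefF N b) :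
    DefF N (fun a => IsSq N R K (y a) (b a)) := by
  unfold IsSq
  fun_prop

theorem exists_isSq [Cpl N R A] (hm : ∀ x y : A, nm (x * y) ≤ nm x * nm y) {y : A}
    (hy : nm y ≤ 1) : ∃ b, IsSq N R K y b := by
  have h1 : DefF N (fun n : NN N => sqs R K y n) := by fun_prop
  refine Cpl.lim (R := R) _ h1.toIntl fun ε hε => ?_
  obtain ⟨n, hn⟩ := rs_cauchy N hε
  refine ⟨n, fun k l hk hl => ?_⟩
  rcases le_total l k with h | h
  · exact (nm_sqs_sub hm hy h).trans_lt (hn k l hl)
  · rw [nm_sub_rev]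
    exact (nm_sqs_sub hm hy h).trans_lt (hn l k hk)

namespace IsSq

variable {y b c : A}

theorem uniq (h : IsSq N R K y b) (h' : IsSq N R K y c) : b = c :=
  eq_of_forall_nm_sub_le fun ε hε => by
    obtain ⟨n, hn⟩ := h _ (half_pos hε)
    obtain ⟨m, hm⟩ := h' _ (half_pos hε)
    have h1 := hn _ (le_max_left n m)
    have h2 := hm _ (le_max_right n m)
    rw [nm_sub_rev] at h1
    linarith [nm_triangle b (sqs R K y (max n m)) c]

theorem nm_le (hm : ∀ x y : A, nm (x * y) ≤ nm x * nm y) (hy : nm y ≤ 1) (h : IsSq N R K y b) :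
    nm b ≤ 1 :=
  le_of_forall_pos_le_add fun ε hε => by
    obtain ⟨n, hn⟩ := h ε hε
    have h1 := hn n le_rfl
    rw [nm_sub_rev] at h1
    linarith [nm_le_add_sub b (sqs R K y n), nm_sqs_le (K := K) hm hy n, (rs_mem (R := R) n).2]

/-- the fixed point equation -/
theorem fix (hm : ∀ x y : A, nm (x * y) ≤ nm x * nm y) (hy : nm y ≤ 1) (h : IsSq N R K y b) :
    b = algebraMap R K (1 / 2) • (y + b * b) :=
  eq_of_forall_nm_sub_le fun ε hε => by
    obtain ⟨n, hn⟩ := h _ (half_pos hε)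
    have h1 := hn n le_rfl
    have h2 := hn (n + 1) (NN.lt_add_one n).le
    have h3 := nm_triangle b (sqs R K y (n + 1)) (algebraMap R K (1 / 2) • (y + b * b))
    rw [nm_sub_rev] at h2
    nth_rewrite 2 [sqs_succ] at h3
    rw [← smul_sub, add_sub_add_left_eq_sub, nm_half] at h3
    have h4 := nm_sq_sub hm (sqs R K y n) b
    have h5 := mul_le_mul (add_le_add ((nm_sqs_le (K := K) hm hy n).trans (rs_mem n).2)
      (h.nm_le hm hy)) h1.le (nm_nonneg _) (by norm_num)
    linarith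

theorem two (hm : ∀ x y : A, nm (x * y) ≤ nm x * nm y) (hy : nm y ≤ 1) (h : IsSq N R K y b) :
    b + b = y + b * b := by
  nth_rewrite 1 [h.fix hm hy]
  nth_rewrite 3 [h.fix hm hy]
  exact half_add_half _

/-- `(1 - b)² = 1 - y` -/
theorem sq (hm : ∀ x y : A, nm (x * y) ≤ nm x * nm y) (hy : nm y ≤ 1) (h : IsSq N R K y b) :
    (1 - b) * (1 - b) = 1 - y := by
  have h1 : (1 - b) * (1 - b) = 1 - (b + b) + b * b := by noncomm_ring
  rw [h1, h.two hm hy]; abel

/-- Closed definable properties preserved by the iteration pass to the limit. -/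
theorem ind (h : IsSq N R K y b) {Q : A → Prop} (hQ : DefF N Q) (h0 : Q 0)
    (hs : ∀ a, Q a → Q (algebraMap R K (1 / 2) • (y + a * a)))
    (hcl : ∀ x, (∀ ε : R, 0 < ε → ∃ a, Q a ∧ nm (x - a) < ε) → Q x) : Q b := by
  refine hcl b fun ε hε => ?_
  obtain ⟨n, hn⟩ := h ε hε
  refine ⟨sqs R K y n, NN.ind (P := fun n => Q (sqs R K y n)) (hQ.comp (by fun_prop))
    (by rwa [sqs_zero]) (fun n ih => by rw [sqs_succ]; exact hs _ ih) n, ?_⟩
  rw [nm_sub_rev]
  exact hn n le_rfl

/-- A bounded additive map `φ` and a Lipschitz condition: two bounded definable maps which agree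
along the iteration agree at the limit. -/
theorem eq_of_lip {E : Type*} [AddCommGroup E] [Nm E R] [NG R E] [Coded N E] (h : IsSq N R K y b)
    {φ ψ : A → E} (hφ : DefF N φ) (hψ : DefF N ψ) {C : R} (hC : 0 ≤ C)
    (h1 : ∀ x a, nm (φ x - φ a) ≤ C * nm (x - a)) (h2 : ∀ x a, nm (ψ x - ψ a) ≤ C * nm (x - a))
    (h0 : φ 0 = ψ 0) (hs : ∀ a, φ a = ψ a →
      φ (algebraMap R K (1 / 2) • (y + a * a)) = ψ (algebraMap R K (1 / 2) • (y + a * a))) :
    φ b = ψ b := by
  refine h.ind (Q := fun a => φ a = ψ a) (by fun_prop) h0 hs fun x hx => ?_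
  refine eq_of_forall_nm_sub_le fun ε hε => ?_
  obtain ⟨a, ha, hxa⟩ := hx (ε / (2 * C + 1)) (by positivity)
  have h3 := nm_triangle (φ x) (φ a) (ψ x)
  have h4 := h2 a x
  rw [nm_sub_rev a x, ← ha] at h4
  rw [lt_div_iff₀ (by positivity)] at hxa
  nlinarith [h1 x a, nm_nonneg (x - a)]

/-- `b` commutes with everything that commutes with `y`. -/
theorem commute (hm : ∀ x y : A, nm (x * y) ≤ nm x * nm y) (h : IsSq N R K y b) {c : A}
    (hc : c * y = y * c) : c * b = b * c := by
  refine h.eq_of_lip (φ := fun a => c * a) (ψ := fun a => a * c) (by fun_prop) (by fun_prop)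
    (nm_nonneg c) (fun x a => by rw [← mul_sub]; exact hm _ _)
    (fun x a => by rw [← sub_mul, mul_comm (nm c)]; exact hm _ _) (by simp) fun a ha => ?_
  have h1 : c * (a * a) = a * a * c := by rw [← mul_assoc, ha, mul_assoc, ha, mul_assoc]
  rw [mul_smul_comm, smul_mul_assoc, mul_add, add_mul, hc, h1]

/-- An additive, anti-multiplicative bounded map fixing `y` (the adjoint) fixes `b`. -/
theorem fixed (h : IsSq N R K y b) {σ : A → A} (hσ : DefF N σ)
    (hadd : ∀ x a, σ (x + a) = σ x + σ a) (hmul : ∀ a, σ (a * a) = σ a * σ a)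
    (hnm : ∀ a, nm (σ a) ≤ nm a) (hy : σ y = y) : σ b = b := by
  have h0 : σ 0 = 0 := by simpa using hadd 0 0
  have hsub : ∀ x a, σ x - σ a = σ (x - a) := fun x a => by
    rw [sub_eq_iff_eq_add, ← hadd, sub_add_cancel]
  have hh : ∀ a, σ (algebraMap R K (1 / 2) • a) = algebraMap R K (1 / 2) • σ a := fun a => by
    conv_rhs => rw [← half_add_half (R := R) (K := K) a, hadd, smul_add, half_add_half]
  refine h.eq_of_lip (φ := σ) (ψ := fun a => a) hσ (by fun_prop) zero_le_one
    (fun x a => by rw [hsub, one_mul]; exact hnm _) (fun x a => by rw [one_mul]) h0 fun a ha => ?_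
  rw [hh, hadd, hy, hmul, ha]

variable {B : Type*} [Ring B] [Algebra K B] [Nm B R] [NA R K B] [Coded N B] [NS N R K B]
  [DefMul N B]

/-- Homomorphisms, bounded on a definable closed subalgebra `Q`, commute with the root. -/
theorem map (h : IsSq N R K y b) {φ : A → B} (hφ : DefF N φ) {Q : A → Prop} (hQ : DefF N Q)
    (h0 : Q 0) (hy : Q y) (hb : Q b) (qadd : ∀ x a, Q x → Q a → Q (x + a))
    (qmul : ∀ x a, Q x → Q a → Q (x * a)) (qsm : ∀ (c : K) a, Q a → Q (c • a))
    (hadd : ∀ x a, Q x → Q a → φ (x + a) = φ x + φ a)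
    (hmul : ∀ x a, Q x → Q a → φ (x * a) = φ x * φ a)
    (hsm : ∀ (c : K) a, Q a → φ (c • a) = c • φ a) {C : R} (hC : 0 ≤ C)
    (hnm : ∀ a, Q a → nm (φ a) ≤ C * nm a) : IsSq N R K (φ y) (φ b) := by
  have key : ∀ n : NN N, Q (sqs R K y n) ∧ φ (sqs R K y n) = sqs R K (φ y) n := fun n =>
    NN.ind (P := fun n => Q (sqs R K y n) ∧ φ (sqs R K y n) = sqs R K (φ y) n)
      ((hQ.comp (by fun_prop)).and (by fun_prop))
      (by rw [sqs_zero, sqs_zero]; exact ⟨h0, by simpa using hsm 0 0 h0⟩) (fun n ih => by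
        have h1 := qmul _ _ ih.1 ih.1
        have h2 := qadd _ _ hy h1
        rw [sqs_succ, sqs_succ, hsm _ _ h2, hadd _ _ hy h1, hmul _ _ ih.1 ih.1, ih.2]
        exact ⟨qsm _ _ h2, rfl⟩) n
  intro ε hε
  obtain ⟨n, hn⟩ := h (ε / (C + 1)) (by positivity)
  refine ⟨n, fun k hk => ?_⟩
  have h1 := qsm (-1) b hb
  have h2 := hnm _ (qadd _ _ (key k).1 h1)
  rw [hadd _ _ (key k).1 h1, hsm _ _ hb, neg_one_smul, neg_one_smul, ← sub_eq_add_neg,
    ← sub_eq_add_neg, (key k).2] at h2
  have h3 := hn k hk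
  rw [lt_div_iff₀ (by positivity)] at h3
  nlinarith [nm_nonneg (sqs R K y k - b)]

end IsSq

open Classical in
variable (N R K) in
/-- the limit of the iteration, as a function -/
noncomputable def sqr (y : A) : A := if h : ∃ b, IsSq N R K y b then h.choose else 0

theorem isSq_sqr [Cpl N R A] (hm : ∀ x y : A, nm (x * y) ≤ nm x * nm y) {y : A} (hy : nm y ≤ 1) :
    IsSq N R K y (sqr N R K y) := by
  have h := exists_isSq (N := N) (K := K) hm hy
  rw [sqr, dif_pos h]
  exact h.choose_spec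

@[fun_prop] theorem defF_sqr {y : α → A} (hy : DefF N y) :
    DefF N (fun a => sqr N R K (y a)) := by
  have h : DefF N (fun y : A => sqr N R K y) := defF_of_rel
    (R := fun (y b : A) => IsSq N R K y b ∨ ((¬ ∃ c, IsSq N R K y c) ∧ b = 0))
    (fun _ _ => inferInstance) (by fun_prop) fun y b _ _ => by
      unfold sqr
      split_ifs with h
      · exact ⟨fun h1 => h1.elim (fun h2 => h.choose_spec.uniq h2) fun h2 => absurd h h2.1,
          fun h1 => Or.inl (h1 ▸ h.choose_spec)⟩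
      · exact ⟨fun h1 => h1.elim (fun h2 => absurd ⟨b, h2⟩ h) fun h2 => h2.2.symm,
          fun h1 => Or.inr ⟨h, h1.symm⟩⟩
  exact h.comp hy

end Vale.Agent.P070Z56
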